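import Vale.Agent.P297Z.Surf.Serre
import Vale.Agent.P297Y.Alg.Defs

/-! The upper bound for the dimension of the first Cech cohomology group. -/

set_option linter.all false

namespace Vale.Agent.P297Z.Gr

open MvPolynomial

variable {V : Type} [AddCommGroup V] [Module ℂ V] [Module T V] [IsScalarTower ℂ T V]

/-- a linear lift through a map that is onto in a given degree -/
theorem exists_lift {N A B : Type} [AddCommGroup N] [Module ℂ N] [AddCommGroup A] [Module ℂ A]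
    [AddCommGroup B] [Module ℂ B] (π : A →ₗ[ℂ] B) (P : Submodule ℂ A) (c : N →ₗ[ℂ] B)
    (h : ∀ n, ∃ a ∈ P, π a = c n) : ∃ y : N →ₗ[ℂ] A, ∀ n, y n ∈ P ∧ π (y n) = c n := by
  choose a ha ha' using h
  let b := Module.Basis.ofVectorSpace ℂ N
  have h1 : π ∘ₗ b.constr ℂ (fun i => a (b i)) = c := b.ext fun i => by
    rw [LinearMap.comp_apply, b.constr_basis, ha']
  refine ⟨b.constr ℂ fun i => a (b i), fun n => ⟨?_, DFunLike.congr_fun h1 n⟩⟩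
  rw [b.constr_apply]
  exact Submodule.sum_mem _ fun i _ => Submodule.smul_mem _ _ (ha _)

namespace Res

variable {M : ℤ → Submodule ℂ V} (R : Res M)

theorem h1_pt (hM : Stab M) {m : ℤ} {e : ℕ} {y₀ y₁ y₂ : R.ι → T} {v : R.κ → T}
    (hy₀ : y₀ ∈ Fr R.a (m + 2 * (e + 1 : ℕ))) (hy₂ : y₂ ∈ Fr R.a (m + 2 * (e + 1 : ℕ)))
    (hv : v ∈ Fr R.b (m + 3 * (e + 1 : ℕ)))
    (hvy : lc R.n v = (X 2 ^ (e + 1) : T) • y₂ - (X 1 ^ (e + 1) : T) • y₁ +
      (X 0 ^ (e + 1) : T) • y₀)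
    (h : ∀ u ∈ Fr R.b' (-m), coeff (dia e) (lc u v) = 0) :
    ∃ g₀ ∈ M (m + (e + 1 : ℕ)), ∃ g₁ ∈ M (m + (e + 1 : ℕ)), ∃ g₂ ∈ M (m + (e + 1 : ℕ)),
      lc R.g y₂ = (X 0 ^ (e + 1) : T) • g₁ - (X 1 ^ (e + 1) : T) • g₀ ∧
      lc R.g y₁ = (X 0 ^ (e + 1) : T) • g₂ - (X 2 ^ (e + 1) : T) • g₀ := by
  obtain ⟨w, hw, hvw⟩ := pair_left_Fr hv h
  have hn := fun k => lc_mem (stab_Fr R.a) R.hn (hw k)
  have h1 : (X 2 ^ (e + 1) : T) • (y₂ - lc R.n (w 2)) - (X 1 ^ (e + 1) : T) • (y₁ + lc R.n (w 1)) +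
      (X 0 ^ (e + 1) : T) • (y₀ - lc R.n (w 0)) = 0 := by
    rw [hvw, Fin.sum_univ_three] at hvy
    simp only [map_add, map_smul] at hvy
    simp only [smul_add, smul_sub]
    rw [← sub_eq_zero] at hvy
    rw [← neg_eq_zero, ← hvy]
    abel
  choose g₀ hg₀ g₁ hg₁ g₂ hg₂ e₂ e₁ e₀ using fun i => koszul_pow
    (mem_Fr.1 (sub_mem hy₀ (hn 0)) i) (mem_Fr.1 (sub_mem hy₂ (hn 2)) i) (congrFun h1 i)
  have hG : ∀ {z : R.ι → T}, (∀ i, z i ∈ Tz (m + 2 * (e + 1 : ℕ) - R.a i - (e + 1 : ℕ))) →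
      lc R.g z ∈ M (m + (e + 1 : ℕ)) := fun {z} hz =>
    lc_mem hM R.gen.mem (mem_Fr.2 fun i => by
      rw [show m + (e + 1 : ℕ) - R.a i = m + 2 * (e + 1 : ℕ) - R.a i - (e + 1 : ℕ) by
        push_cast; ring]
      exact hz i)
  have f₂ : y₂ - lc R.n (w 2) = (X 0 ^ (e + 1) : T) • g₁ - (X 1 ^ (e + 1) : T) • g₀ := funext e₂
  have f₁ : y₁ + lc R.n (w 1) = (X 0 ^ (e + 1) : T) • g₂ - (X 2 ^ (e + 1) : T) • g₀ := funext e₁
  have k₂ := congrArg (lc R.g) f₂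
  have k₁ := congrArg (lc R.g) f₁
  simp only [map_add, map_sub, map_smul, R.lc_g_n, sub_zero, add_zero] at k₂ k₁
  exact ⟨_, hG hg₀, _, hG hg₁, _, hG hg₂, k₂, k₁⟩

/-- The bound for families of cocycles. -/
theorem h1_le (hM : Stab M) {m : ℤ} {e : ℕ} {N : Type} [AddCommGroup N] [Module ℂ N]
    [FiniteDimensional ℂ N] (c₀ c₁ c₂ : N →ₗ[ℂ] V) (h0 : ∀ n, c₀ n ∈ M (m + 2 * (e + 1 : ℕ)))
    (h1 : ∀ n, c₁ n ∈ M (m + 2 * (e + 1 : ℕ))) (h2 : ∀ n, c₂ n ∈ M (m + 2 * (e + 1 : ℕ)))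
    (hc : ∀ n, (X 2 ^ (e + 1) : T) • c₂ n - (X 1 ^ (e + 1) : T) • c₁ n +
      (X 0 ^ (e + 1) : T) • c₀ n = 0) :
    ∃ P : Submodule ℂ N, Module.finrank ℂ N + Module.finrank ℂ (R.Im (-m)) ≤
      Module.finrank ℂ P + Module.finrank ℂ (Fr R.b' (-m)) ∧ ∀ n ∈ P,
      ∃ g₀ ∈ M (m + (e + 1 : ℕ)), ∃ g₁ ∈ M (m + (e + 1 : ℕ)), ∃ g₂ ∈ M (m + (e + 1 : ℕ)),
        c₂ n = (X 0 ^ (e + 1) : T) • g₁ - (X 1 ^ (e + 1) : T) • g₀ ∧
        c₁ n = (X 0 ^ (e + 1) : T) • g₂ - (X 2 ^ (e + 1) : T) • g₀ := by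
  obtain ⟨y₀, hy₀⟩ := exists_lift ((lc R.g).restrictScalars ℂ) _ c₀ fun n => R.gen.surj _ _ (h0 n)
  obtain ⟨y₁, hy₁⟩ := exists_lift ((lc R.g).restrictScalars ℂ) _ c₁ fun n => R.gen.surj _ _ (h1 n)
  obtain ⟨y₂, hy₂⟩ := exists_lift ((lc R.g).restrictScalars ℂ) _ c₂ fun n => R.gen.surj _ _ (h2 n)
  simp only [LinearMap.restrictScalars_apply] at hy₀ hy₁ hy₂
  have hF : ∀ (i : Fin 3) {z : R.ι → T}, z ∈ Fr R.a (m + 2 * (e + 1 : ℕ)) →
      (X i ^ (e + 1) : T) • z ∈ Fr R.a (m + 3 * (e + 1 : ℕ)) :=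
    fun i z hz => (stab_Fr R.a).smul (X_pow_mem i (e + 1)) hz (by ring)
  obtain ⟨v, hv⟩ := exists_lift ((lc R.n).restrictScalars ℂ) (Fr R.b (m + 3 * (e + 1 : ℕ)))
    ((X 2 ^ (e + 1) : T) • y₂ - (X 1 ^ (e + 1) : T) • y₁ + (X 0 ^ (e + 1) : T) • y₀) fun n =>
      R.exact _ _ (add_mem (sub_mem (hF 2 (hy₂ n).1) (hF 1 (hy₁ n).1)) (hF 0 (hy₀ n).1)) (by
        have := hc n
        rw [← (hy₀ n).2, ← (hy₁ n).2, ← (hy₂ n).2] at this
        simpa only [LinearMap.add_apply, LinearMap.sub_apply, LinearMap.smul_apply, map_add,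
          map_sub, map_smul] using this)
  simp only [LinearMap.restrictScalars_apply, LinearMap.add_apply, LinearMap.sub_apply,
    LinearMap.smul_apply] at hv
  let lam : N →ₗ[ℂ] Module.Dual ℂ (Fr R.b' (-m)) := LinearMap.mk₂ ℂ
    (fun n u => coeff (dia e) (lc (v n) u.1))
    (fun n n' u => by rw [map_add, lc_comm, map_add, coeff_add, lc_comm, lc_comm u.1])
    (fun c n u => by
      rw [map_smul, lc_comm, LinearMap.map_smul_of_tower, coeff_smul, lc_comm])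
    (fun n u u' => by rw [Submodule.coe_add, map_add, coeff_add])
    (fun c n u => by rw [Submodule.coe_smul, LinearMap.map_smul_of_tower, coeff_smul])
  have hr : LinearMap.range lam ≤
      ((R.Im (-m)).comap (Fr R.b' (-m)).subtype).dualAnnihilator := by
    rintro _ ⟨n, rfl⟩
    rw [Submodule.mem_dualAnnihilator]
    rintro ⟨u, hu⟩ ⟨u', -, rfl⟩
    change coeff _ (lc (v n) (lc R.col u')) = 0
    rw [lc_comm, ← R.lc_tr, (hv n).2]
    simp only [map_add, map_sub, map_smul, smul_eq_mul, coeff_add, coeff_sub]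
    rw [coeff_pow_mul_zero, coeff_pow_mul_zero, coeff_pow_mul_zero] <;> simp [dia_apply]
  refine ⟨LinearMap.ker lam, ?_, fun n hn => ?_⟩
  · have a1 := lam.finrank_range_add_finrank_ker
    have a2 := Submodule.finrank_mono hr
    have a3 := Subspace.finrank_add_finrank_dualAnnihilator_eq
      ((R.Im (-m)).comap (Fr R.b' (-m)).subtype)
    have a4 := (Submodule.comapSubtypeEquivOfLe (R.Im_le (-m))).finrank_eq
    omega
  · rw [← (hy₁ n).2, ← (hy₂ n).2]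
    refine R.h1_pt hM (hy₀ n).1 (hy₂ n).1 (hv n).1 (hv n).2 fun u hu => ?_
    rw [lc_comm]
    have h3 : lam n = 0 := hn
    have h4 : lam n ⟨u, hu⟩ = 0 := by rw [h3, LinearMap.zero_apply]
    exact h4

end Res

end Vale.Agent.P297Z.Gr

namespace Vale.Agent.P297Z.Sf

open Gr MvPolynomial

variable {K : Type} [Field K] [Algebra ℂ K]

namespace Surf

variable (S : Surf K)

/-- The parameters for which the cocycle is a coboundary. -/
def cob (Y : Div S.W) {N : Type} [AddCommGroup N] [Module ℂ N] (φ : Fin 3 → N →ₗ[ℂ] K) :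
    Submodule ℂ N where
  carrier := {n | ∃ g, ∀ i, φ i n - g ∈ secIn (S.x i) Y}
  zero_mem' := ⟨0, fun i => by simp⟩
  add_mem' := by
    rintro a b ⟨g, hg⟩ ⟨g', hg'⟩
    exact ⟨g + g', fun i => by
      rw [map_add, add_sub_add_comm]; exact add_mem (hg i) (hg' i)⟩
  smul_mem' := by
    rintro c a ⟨g, hg⟩
    exact ⟨c • g, fun i => by rw [map_smul, ← smul_sub]; exact Submodule.smul_mem _ _ (hg i)⟩

theorem mem_cob {Y : Div S.W} {N : Type} [AddCommGroup N] [Module ℂ N] {φ : Fin 3 → N →ₗ[ℂ] K}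
    {n : N} : n ∈ S.cob Y φ ↔ ∃ g, ∀ i, φ i n - g ∈ secIn (S.x i) Y := Iff.rfl

variable {S}

theorem exists_level (hL : S.Loc) {Y : Div S.W} {N : Type} [AddCommGroup N] [Module ℂ N]
    [FiniteDimensional ℂ N] (i j : Fin 3) (ψ : N →ₗ[ℂ] K)
    (h : ∀ n, ψ n ∈ secOn (fun C : Crv S.W => C.In (S.x i) ∧ C.In (S.x j)) Y) :
    ∃ e₀ : ℕ, ∀ e : ℕ, e₀ ≤ e → ∀ n, ψ n * (S.x i ^ e * S.x j ^ e) ∈ M Y (0 + 2 * e) := by
  let b := Module.finBasis ℂ N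
  obtain ⟨_, _, -⟩ := S.exists_act
  choose a ha using fun k => exists_mul_mem hL i j (h (b k))
  refine ⟨∑ k, a k, fun e he n => ?_⟩
  rw [← b.sum_repr n, map_sum, Finset.sum_mul]
  refine Submodule.sum_mem _ fun k _ => ?_
  rw [map_smul, smul_mul_assoc]
  exact Submodule.smul_mem _ _ (ha k e ((Finset.single_le_sum (f := a) (fun _ _ => Nat.zero_le _)
    (Finset.mem_univ k)).trans he))

/-- The codimension of the coboundaries in a family of cocycles is at most `h¹`. -/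
theorem h1le (h : S.All) (Y : Div S.W) {N : Type} [AddCommGroup N] [Module ℂ N]
    [FiniteDimensional ℂ N] (φ : Fin 3 → N →ₗ[ℂ] K)
    (hφ : ∀ i j n, φ i n - φ j n ∈ secOn (fun C : Crv S.W => C.In (S.x i) ∧ C.In (S.x j)) Y) :
    (Module.finrank ℂ N : ℤ) ≤ Module.finrank ℂ (S.cob Y φ) + S.h1 Y := by
  have hL := h.toLoc
  obtain ⟨_, _, hA⟩ := S.exists_act
  have hM := stab hA hL Y
  obtain ⟨R⟩ := exists_res hM (fg_M hA h.fg Y) (regAll hA hL Y).reg01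
  have n0 := S.x_ne 0
  have n1 := S.x_ne 1
  have n2 := S.x_ne 2
  have hs : ∀ i j n, (φ j - φ i) n ∈
      secOn (fun C : Crv S.W => C.In (S.x i) ∧ C.In (S.x j)) Y := fun i j n =>
    secOn_mono (fun C hC => ⟨hC.symm, le_rfl⟩) (hφ j i n)
  obtain ⟨a, ha⟩ := exists_level hL 0 1 _ (hs 0 1)
  obtain ⟨b, hb⟩ := exists_level hL 0 2 _ (hs 0 2)
  obtain ⟨c, hc⟩ := exists_level hL 1 2 _ (hs 1 2)
  obtain ⟨e, he⟩ : ∃ e, e = a + b + c := ⟨_, rfl⟩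
  obtain ⟨P, h1, h2⟩ := R.h1_le hM (m := 0) (e := e)
    (LinearMap.mulRight ℂ (S.x 1 ^ (e + 1) * S.x 2 ^ (e + 1)) ∘ₗ (φ 2 - φ 1))
    (LinearMap.mulRight ℂ (S.x 0 ^ (e + 1) * S.x 2 ^ (e + 1)) ∘ₗ (φ 2 - φ 0))
    (LinearMap.mulRight ℂ (S.x 0 ^ (e + 1) * S.x 1 ^ (e + 1)) ∘ₗ (φ 1 - φ 0))
    (hc _ (by omega)) (hb _ (by omega)) (ha _ (by omega)) fun n => by
      simp only [hA _, map_pow, aeval_X, LinearMap.comp_apply, LinearMap.mulRight_apply,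
        LinearMap.sub_apply]
      ring
  have h3 : P ≤ S.cob Y φ := fun n hn => by
    obtain ⟨g₀, m0, g₁, m1, g₂, m2, e1, e2⟩ := h2 n hn
    simp only [hA _, map_pow, aeval_X, LinearMap.comp_apply, LinearMap.mulRight_apply,
      LinearMap.sub_apply] at e1 e2
    refine ⟨φ 0 n - g₀ / S.x 0 ^ (e + 1), fun i => ?_⟩
    fin_cases i
    · simpa using div_mem_secIn hL 0 m0
    · have e3 : φ 1 n - (φ 0 n - g₀ / S.x 0 ^ (e + 1)) = g₁ / S.x 1 ^ (e + 1) := by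
        field_simp
        linear_combination e1
      exact e3 ▸ div_mem_secIn hL 1 m1
    · have e3 : φ 2 n - (φ 0 n - g₀ / S.x 0 ^ (e + 1)) = g₂ / S.x 2 ^ (e + 1) := by
        field_simp
        linear_combination e2
      exact e3 ▸ div_mem_secIn hL 2 m2
  have h4 := Submodule.finrank_mono h3
  have h5 := R.chi_eq hM 0
  have h6 := chi_eq_of R.chi_quad (R.chi_large hM) 0
  rw [finrank_dual hA hL h.dual, neg_zero, ← h0_eq, ← h0_eq] at h5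
  rw [zero_smul, add_zero] at h6
  simp only [zero_smul, add_zero] at h5
  rw [neg_zero] at h1
  unfold Surf.h1
  omega

end Surf

end Vale.Agent.P297Z.Sf
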